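import Vale.Agent.P243.Defs

/-!
# P243: the lower bound for cylinder coverings exceeds one third
-/

open Vale.Agent.P243 in
/-- There is a universal `ε > 0` such that every finite cylinder covering of a convex body in
three-space has directionwise relative area at least `1/3 + ε`. -/
theorem Vale.Agent.Results.P243.AboveOneThird.result :
    ∃ ε : ℝ, 0 < ε ∧ ∀ K : Set E3, IsCompact K → Convex ℝ K → (interior K).Nonempty →
      ∀ (m : ℕ) (u : Fin m → E3) (B : Bases u),
        IsCylinderCover K u B → ENNReal.ofReal (1 / 3 + ε) ≤ relativeArea K u B :=
  relativeArea_bound
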