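import Vale.Agent.P243.Coplanar.Main

/-!
# P243: the half-area bound holds when all axes are parallel to one plane
-/

open Vale.Agent.P243.Bundle Vale.Agent.P243.Coplanar in
/-- If the axes of a finite cylinder covering of a convex body in three-space are parallel to one
plane, the total base area is at least half of the area of some orthogonal projection of the body. -/
theorem Vale.Agent.Results.P243.CoplanarAxes.result :
    ∀ K : Set E3, IsCompact K → Convex ℝ K → (interior K).Nonempty →
      ∀ (m : ℕ) (u : Fin m → E3) (B : Bases u), IsCylinderCover K u B →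
        (∃ e : E3, e ≠ 0 ∧ ∀ i, inner ℝ e (u i) = 0) →
          ∃ v : E3, ‖v‖ = 1 ∧
            planeArea v (projPlane v '' K) ≤ 2 * ∑ i, planeArea (u i) (B i) :=
  fun _ hK hcv hint _ _ _ hC ⟨_, he, h0⟩ => half_area hK hcv hint hC he h0
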