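import Vale.Agent.P243.Fan.Main

/-!
# P243: Bang's half-area bound is false
-/

open Vale.Agent.P243.Bundle in
/-- A convex body in three-space and a finite cylinder covering of it with total base area less
than half of its smallest shadow. -/
theorem Vale.Agent.Results.P243.HalfAreaFalse.result :
    ∃ K : Set E3, IsCompact K ∧ Convex ℝ K ∧ (interior K).Nonempty ∧
      ∃ (k : ℕ) (u : Fin k → E3) (B : Bases u), IsCylinderCover K u B ∧
        ∃ A : ℝ, 0 < A ∧ (∀ v : E3, ‖v‖ = 1 → ENNReal.ofReal A ≤ planeArea v (projPlane v '' K)) ∧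
          ∑ i, planeArea (u i) (B i) ≤ ENNReal.ofReal ((1 / 2 - 1 / 2 ^ 34) * A) :=
  Vale.Agent.P243.Fan.exists_cover_below_half
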