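import Vale.Agent.P243.Symmetric.Main

/-!
# P243: the half-area bound for centrally symmetric bodies
-/

open Vale.Agent.P243.Bundle Vale.Agent.P243.Symmetric in
/-- For a centrally symmetric convex body in three-space, every finite cylinder covering has total
base area at least `π / (4 √2) > 1 / 2` times the area of some orthogonal projection of the body. -/
theorem Vale.Agent.Results.P243.Symmetric.result :
    ∀ K : Set E3, IsCompact K → Convex ℝ K → (interior K).Nonempty →
      (∃ c : E3, ∀ x ∈ K, (2 : ℝ) • c - x ∈ K) →
        ∀ (m : ℕ) (u : Fin m → E3) (B : Bases u), IsCylinderCover K u B →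
          ∃ z : E3, ‖z‖ = 1 ∧
            ENNReal.ofReal (Real.pi / (4 * Real.sqrt 2)) * planeArea z (projPlane z '' K)
              ≤ ∑ i, planeArea (u i) (B i) :=
  fun _ hK hcv hint ⟨_, hsym⟩ _ _ _ hC => symmetric_bound hK hcv hint hsym hC
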